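import Vale.Agent.P141.H958.Kill

/-!
# P141, line (A): affected squares on a shifted grid, packing

`AfS q h h' k a b` : the square `(a, b)` of scale `k` of the grid shifted by `(h, h')` meets a
standard square of `q` of scale `k`.

* `AfS_imp` : it meets at most four standard squares; `AfS_of` : the standard square of one of its
  points;
* `pack_AfS` : packing in every square of the shifted grid, constant `16 cP`;
* `packQ_AfS` : the same as `PackQ`; `hB_AfS` : in every affected square; `tot_AfS` : the total.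
-/

namespace Vale.Agent.P141.H359

open Finset Vale.Agent.P141.PL
open Vale.Agent.P141.H958 (Aff PackQ mem_Aff)

noncomputable section

open scoped Classical

/-- the square `(a, b)` of scale `k` of the grid shifted by `(h, h')` meets a square of `q` -/
def AfS (q : ℕ → ℤ → ℤ → Prop) (h h' : ℤ) (k : ℕ) (a b : ℤ) : Prop :=
  ∃ z ∈ iv k a, ∃ x ∈ iv k b, q k (ix k (z + h)) (ix k (x + h'))

theorem bd (k : ℕ) (x : ℤ) : 2 ^ k * ix k x ≤ x ∧ x < 2 ^ k * ix k x + 2 ^ k := by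
  have h := (mem_iv (k := k) (m := ix k x) (x := x)).2 rfl
  unfold PL.iv at h
  rw [mem_Ico] at h
  exact h

theorem ix_eq {k : ℕ} {x m : ℤ} (h1 : 2 ^ k * m ≤ x) (h2 : x < 2 ^ k * m + 2 ^ k) : ix k x = m := by
  rw [← mem_iv]
  unfold PL.iv
  rw [mem_Ico]
  exact ⟨h1, h2⟩

/-- the standard cell of a shifted point -/
theorem ix_add {k : ℕ} {a z : ℤ} (hz : z ∈ iv k a) (h : ℤ) :
    ∃ e ∈ ({0, 1} : Finset ℤ), ix k (z + h) = a + ix k h + e := by
  have hz' := (mem_iv (k := k) (m := a) (x := z)).1 hz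
  obtain ⟨z1, z2⟩ := bd k z
  obtain ⟨h1, h2⟩ := bd k h
  rw [hz'] at z1 z2
  by_cases hc : z + h < 2 ^ k * (a + ix k h) + 2 ^ k
  · refine ⟨0, by simp, ?_⟩
    rw [add_zero]
    refine ix_eq ?_ hc
    rw [mul_add]
    linarith
  · refine ⟨1, by simp, ?_⟩
    refine ix_eq ?_ ?_
    · have : (2 : ℤ) ^ k * (a + ix k h + 1) = 2 ^ k * (a + ix k h) + 2 ^ k := by ring
      rw [this]
      linarith
    · have : (2 : ℤ) ^ k * (a + ix k h + 1) + 2 ^ k =
          2 ^ k * a + 2 ^ k + (2 ^ k * ix k h + 2 ^ k) := by ring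
      rw [this]
      linarith

/-- **At most four standard squares.** -/
theorem AfS_imp {q : ℕ → ℤ → ℤ → Prop} {h h' : ℤ} {k : ℕ} {a b : ℤ} (H : AfS q h h' k a b) :
    ∃ e ∈ ({0, 1} : Finset ℤ), ∃ e' ∈ ({0, 1} : Finset ℤ),
      q k (a + ix k h + e) (b + ix k h' + e') := by
  obtain ⟨z, hz, x, hx, hq⟩ := H
  obtain ⟨e, he, e1⟩ := ix_add hz h
  obtain ⟨e', he', e2⟩ := ix_add hx h'
  exact ⟨e, he, e', he', by rw [← e1, ← e2]; exact hq⟩

/-- the square of the shifted grid of a point whose standard square is in `q` -/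
theorem AfS_of {q : ℕ → ℤ → ℤ → Prop} {h h' : ℤ} {k : ℕ} {z x : ℤ}
    (H : q k (ix k (z + h)) (ix k (x + h'))) : AfS q h h' k (ix k z) (ix k x) :=
  ⟨z, mem_iv.2 rfl, x, mem_iv.2 rfl, H⟩

theorem not_AfS {q : ℕ → ℤ → ℤ → Prop} {h h' : ℤ} {k : ℕ} {a b z x : ℤ}
    (H : ¬ AfS q h h' k a b) (hz : z ∈ iv k a) (hx : x ∈ iv k b) :
    ¬ q k (ix k (z + h)) (ix k (x + h')) := fun hq => H ⟨z, hz, x, hx, hq⟩

/-! ### Packing -/

/-- a shifted sum over the cells of scale `k` in a cell of scale `j` -/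
theorem sum_sh {j k : ℕ} (hkj : k ≤ j) (r h : ℤ) {e : ℤ} (he : e ∈ ({0, 1} : Finset ℤ))
    {f : ℤ → ℝ} (hf : ∀ p, 0 ≤ f p) :
    ∑ p ∈ iv (j - k) r, f (p + ix k h + e) ≤
      ∑ d ∈ ({0, 1} : Finset ℤ), ∑ p ∈ iv (j - k) (r + ix j h + d), f p := by
  have he' : 0 ≤ e ∧ e ≤ 1 := by
    simp only [mem_insert, mem_singleton] at he
    omega
  set N := j - k with hN
  have hc : ix N (ix k h) = ix j h := by
    rw [ix_ix, hN, Nat.add_sub_cancel' hkj]
  obtain ⟨c1, c2⟩ := bd N (ix k h)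
  rw [hc] at c1 c2
  have hp : (0 : ℤ) < 2 ^ N := by positivity
  have hU : ∑ d ∈ ({0, 1} : Finset ℤ), ∑ p ∈ iv N (r + ix j h + d), f p =
      ∑ p ∈ iv N (r + ix j h) ∪ iv N (r + ix j h + 1), f p := by
    rw [sum_union]
    · rw [sum_insert (by simp), sum_singleton, add_zero]
    · rw [disjoint_left]
      intro p h1 h2
      rw [mem_iv] at h1 h2
      omega
  rw [hU]
  have h1 : ∑ p ∈ iv N r, f (p + ix k h + e) =
      ∑ p ∈ (iv N r).image (fun p => p + ix k h + e), f p := by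
    rw [sum_image]
    intro x _ y _ hxy
    simpa using hxy
  rw [h1]
  refine sum_le_sum_of_subset_of_nonneg ?_ fun p _ _ => hf p
  intro p hpp
  rw [mem_image] at hpp
  obtain ⟨x, hx, rfl⟩ := hpp
  have hx' := (mem_iv (k := N) (m := r) (x := x)).1 hx
  obtain ⟨x1, x2⟩ := bd N x
  rw [hx'] at x1 x2
  rw [mem_union]
  have a1 : (2 : ℤ) ^ N * (r + ix j h) = 2 ^ N * r + 2 ^ N * ix j h := by ring
  by_cases hcase : x + ix k h + e < 2 ^ N * (r + ix j h) + 2 ^ N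
  · left
    rw [mem_iv]
    refine ix_eq ?_ hcase
    rw [a1]
    linarith
  · right
    rw [mem_iv]
    refine ix_eq ?_ ?_
    · have : (2 : ℤ) ^ N * (r + ix j h + 1) = 2 ^ N * (r + ix j h) + 2 ^ N := by ring
      rw [this]
      linarith
    · have : (2 : ℤ) ^ N * (r + ix j h + 1) + 2 ^ N =
          2 ^ N * r + 2 ^ N + (2 ^ N * ix j h + 2 ^ N) := by ring
      rw [this]
      omega

/-- **Packing of the affected squares of the shifted grid**, every square of the shifted grid. -/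
theorem pack_AfS {n : ℕ} {cP : ℝ} {q : ℕ → ℤ → ℤ → Prop}
    (hq : ∀ j ≤ n, ∀ r s : ℤ, ∑ k ∈ range (j + 1), ∑ r' ∈ iv (j - k) r, ∑ s' ∈ iv (j - k) s,
      (if q k r' s' then (4 : ℝ) ^ k else 0) ≤ cP * 4 ^ j) (h h' : ℤ) {j : ℕ} (hj : j ≤ n)
    (r s : ℤ) :
    ∑ k ∈ range (j + 1), ∑ r' ∈ iv (j - k) r, ∑ s' ∈ iv (j - k) s,
      (if AfS q h h' k r' s' then (4 : ℝ) ^ k else 0) ≤ 16 * cP * 4 ^ j := by
  set E : Finset ℤ := {0, 1} with hE
  set g : ℕ → ℤ → ℤ → ℝ := fun k p p' => if q k p p' then (4 : ℝ) ^ k else 0 with hg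
  have g0 : ∀ k p p', 0 ≤ g k p p' := by
    intro k p p'
    simp only [hg]
    split_ifs
    · positivity
    · exact le_rfl
  have h1 : ∀ k ∈ range (j + 1), ∑ r' ∈ iv (j - k) r, ∑ s' ∈ iv (j - k) s,
      (if AfS q h h' k r' s' then (4 : ℝ) ^ k else 0) ≤
      ∑ e ∈ E, ∑ e' ∈ E, ∑ d ∈ E, ∑ d' ∈ E, ∑ p ∈ iv (j - k) (r + ix j h + d),
        ∑ p' ∈ iv (j - k) (s + ix j h' + d'), g k p p' := by
    intro k hk
    have hkj : k ≤ j := by
      rw [mem_range] at hk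
      omega
    have a1 : ∀ r' s', (if AfS q h h' k r' s' then (4 : ℝ) ^ k else 0) ≤
        ∑ e ∈ E, ∑ e' ∈ E, g k (r' + ix k h + e) (s' + ix k h' + e') := by
      intro r' s'
      split_ifs with hA
      · obtain ⟨e, he, e', he', hqq⟩ := AfS_imp hA
        refine le_trans ?_ (single_le_sum (f := fun e => ∑ e' ∈ E,
          g k (r' + ix k h + e) (s' + ix k h' + e')) (fun i _ => sum_nonneg fun i' _ => g0 _ _ _) he)
        refine le_trans ?_ (single_le_sum (f := fun e' =>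
          g k (r' + ix k h + e) (s' + ix k h' + e')) (fun i' _ => g0 _ _ _) he')
        simp only [hg]
        rw [if_pos hqq]
      · exact sum_nonneg fun _ _ => sum_nonneg fun _ _ => g0 _ _ _
    refine (sum_le_sum fun r' _ => sum_le_sum fun s' _ => a1 r' s').trans ?_
    have a2 : ∑ r' ∈ iv (j - k) r, ∑ s' ∈ iv (j - k) s, ∑ e ∈ E, ∑ e' ∈ E,
        g k (r' + ix k h + e) (s' + ix k h' + e') = ∑ e ∈ E, ∑ e' ∈ E,
        ∑ r' ∈ iv (j - k) r, ∑ s' ∈ iv (j - k) s,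
          g k (r' + ix k h + e) (s' + ix k h' + e') := by
      rw [sum_congr rfl fun r' _ => sum_comm]
      rw [sum_comm]
      refine sum_congr rfl fun e _ => ?_
      rw [sum_congr rfl fun r' _ => sum_comm]
      rw [sum_comm]
    rw [a2]
    refine sum_le_sum fun e he => sum_le_sum fun e' he' => ?_
    have a3 := sum_sh hkj r h he
      (f := fun p => ∑ s' ∈ iv (j - k) s, g k p (s' + ix k h' + e'))
      fun p => sum_nonneg fun _ _ => g0 _ _ _
    refine a3.trans ?_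
    refine sum_le_sum fun d _ => ?_
    have a4 : ∀ p, ∑ s' ∈ iv (j - k) s, g k p (s' + ix k h' + e') ≤
        ∑ d' ∈ E, ∑ p' ∈ iv (j - k) (s + ix j h' + d'), g k p p' := fun p =>
      sum_sh hkj s h' he' (f := fun p' => g k p p') fun p' => g0 _ _ _
    refine (sum_le_sum fun p _ => a4 p).trans (le_of_eq ?_)
    rw [sum_comm]
  refine (sum_le_sum h1).trans ?_
  have h2 : ∑ k ∈ range (j + 1), ∑ e ∈ E, ∑ e' ∈ E, ∑ d ∈ E, ∑ d' ∈ E,
      ∑ p ∈ iv (j - k) (r + ix j h + d), ∑ p' ∈ iv (j - k) (s + ix j h' + d'), g k p p' =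
      ∑ e ∈ E, ∑ e' ∈ E, ∑ d ∈ E, ∑ d' ∈ E, ∑ k ∈ range (j + 1),
      ∑ p ∈ iv (j - k) (r + ix j h + d), ∑ p' ∈ iv (j - k) (s + ix j h' + d'), g k p p' := by
    rw [sum_comm]
    refine sum_congr rfl fun e _ => ?_
    rw [sum_comm]
    refine sum_congr rfl fun e' _ => ?_
    rw [sum_comm]
    refine sum_congr rfl fun d _ => ?_
    rw [sum_comm]
  rw [h2]
  have h3 : ∀ e ∈ E, ∀ e' ∈ E, ∀ d ∈ E, ∀ d' ∈ E, ∑ k ∈ range (j + 1),
      ∑ p ∈ iv (j - k) (r + ix j h + d), ∑ p' ∈ iv (j - k) (s + ix j h' + d'), g k p p' ≤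
      cP * 4 ^ j := fun e _ e' _ d _ d' _ => hq j hj _ _
  refine (sum_le_sum fun e he => sum_le_sum fun e' he' => sum_le_sum fun d hd =>
    sum_le_sum fun d' hd' => h3 e he e' he' d hd d' hd').trans (le_of_eq ?_)
  simp only [hE, sum_const, nsmul_eq_mul]
  have hc : ((({0, 1} : Finset ℤ)).card : ℝ) = 2 := by
    rw [card_insert_of_notMem (by simp), card_singleton]
    norm_num
  rw [hc]
  ring

variable {n : ℕ} {cP : ℝ} {q : ℕ → ℤ → ℤ → Prop}

/-- **The same in the letters of the paths.** -/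
theorem packQ_AfS (hq : ∀ j ≤ n, ∀ r s : ℤ, ∑ k ∈ range (j + 1), ∑ r' ∈ iv (j - k) r,
      ∑ s' ∈ iv (j - k) s, (if q k r' s' then (4 : ℝ) ^ k else 0) ≤ cP * 4 ^ j) (h h' : ℤ)
    (R S : ℤ) : PackQ n R S (AfS q h h') (16 * cP) :=
  H958.Kill.packQ_of fun _ hK r s => pack_AfS hq h h' hK r s

/-- the affected squares inside a given affected square -/
theorem hB_AfS (hq : ∀ j ≤ n, ∀ r s : ℤ, ∑ k ∈ range (j + 1), ∑ r' ∈ iv (j - k) r,
      ∑ s' ∈ iv (j - k) s, (if q k r' s' then (4 : ℝ) ^ k else 0) ≤ cP * 4 ^ j) (h h' : ℤ)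
    (R S : ℤ) (a : ℕ × ℤ × ℤ) (ha : a ∈ Aff n R S (AfS q h h')) :
    ∑ b ∈ (Aff n R S (AfS q h h')).filter (fun b => b.1 ≤ a.1 ∧ ix (a.1 - b.1) b.2.1 = a.2.1 ∧
      ix (a.1 - b.1) b.2.2 = a.2.2), (4 : ℝ) ^ b.1 ≤ 16 * cP * 4 ^ a.1 :=
  packQ_AfS hq h h' R S a.1 (mem_Aff.1 ha).1.le a.2.1 a.2.2

/-- the total of the affected squares of a root -/
theorem tot_AfS (hq : ∀ j ≤ n, ∀ r s : ℤ, ∑ k ∈ range (j + 1), ∑ r' ∈ iv (j - k) r,
      ∑ s' ∈ iv (j - k) s, (if q k r' s' then (4 : ℝ) ^ k else 0) ≤ cP * 4 ^ j) (h h' : ℤ)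
    (R S : ℤ) : ∑ b ∈ Aff n R S (AfS q h h'), (4 : ℝ) ^ b.1 ≤ 16 * cP * 4 ^ n := by
  have h1 := packQ_AfS hq h h' R S n le_rfl R S
  refine le_trans (le_of_eq ?_) h1
  congr 1
  refine (filter_true_of_mem fun b hb => ?_).symm
  obtain ⟨b1, b2, b3, _⟩ := mem_Aff.1 hb
  exact ⟨b1.le, mem_iv.1 b2, mem_iv.1 b3⟩

end

end Vale.Agent.P141.H359
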